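import Vale.Agent.P269.Prop.Eff
import Vale.Agent.P269.Prop.TopB
import Vale.Agent.P287Q.G.Cpt.Quo

/-!
# The action is proper and generically free near the solutions
-/

set_option linter.unusedSectionVars false

namespace Vale.Agent.P269

open Set Function Topology Filter Holo Base Ch

variable {S Λ R J K ι ν κ : Type} [Fintype S] [Fintype Λ] [Fintype R] [DecidableEq R] [Fintype J]
  [Fintype K] [Fintype ι] [DecidableEq ι] [Fintype ν] [Fintype κ] {ch : Ch ι J}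

theorem Holo.Den.mem_closure {A W : Type} [NormedRing A] [NormedAddCommGroup W] [NormedSpace ℂ W]
    {act : A → W → W} {D : Submodule ℂ W} {y : W} {T O : Set W} (h : Den act D y) (hO : O ∈ 𝓝 y)
    (hT : ∀ δ ∈ D, y + δ ∈ T) :
    y ∈ closure {z | z ∈ T ∩ O ∧ ∀ a, IsUnit a → act a z = z → a = 1} :=
  mem_closure_iff_frequently.2 (((mem_closure_iff_frequently.1 h).and_eventually hO).mono
    fun z hz => ⟨⟨by simpa using hT _ hz.1.1, hz.2⟩, by
      rintro _ ⟨u, rfl⟩ e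
      rw [hz.1.2 u e, Units.val_one]⟩)

/-- The directions in which only the fields in `A` change. -/
def Ch.Dv (ch : Ch ι J) (ν κ Λ : Type) [Fintype ν] [Fintype κ] [Fintype Λ] (A : Set J) :
    Submodule ℂ (ch.WF ν κ Λ) where
  carrier := {δ | δ.1 = 0 ∧ (∀ l, δ.2.Q l = 0) ∧ (∀ n, δ.2.p n = 0) ∧ δ.2.Ξ = 0 ∧
    ∀ j ∉ A, δ.2.X j = 0}
  add_mem' := fun {_ _} ⟨a1, a2, a3, a4, a5⟩ ⟨b1, b2, b3, b4, b5⟩ =>
    ⟨(congrArg₂ _ a1 b1).trans (add_zero _), fun l => (congrArg₂ _ (a2 l) (b2 l)).trans (add_zero _),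
      fun n => (congrArg₂ _ (a3 n) (b3 n)).trans (add_zero _), (congrArg₂ _ a4 b4).trans (add_zero _),
      fun j hj => (congrArg₂ _ (a5 j hj) (b5 j hj)).trans (add_zero _)⟩
  zero_mem' := ⟨rfl, fun _ => rfl, fun _ => rfl, rfl, fun _ _ => rfl⟩
  smul_mem' := fun c _ ⟨a1, a2, a3, a4, a5⟩ =>
    ⟨(congrArg (c • ·) a1).trans (smul_zero c),
      fun l => ContinuousLinearMap.ext fun μ =>
        (congrArg (fun T => c • T μ) (a2 l)).trans (smul_zero c),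
      fun n => (congrArg (c • ·) (a3 n)).trans (smul_zero c),
      ContinuousLinearMap.ext fun μ => (congrArg (fun T => c • T μ) a4).trans (smul_zero c),
      fun j hj => ContinuousLinearMap.ext fun μ =>
        (congrArg (fun T => c • T μ) (a5 j hj)).trans (smul_zero c)⟩

theorem Ch.mem_Dv {A : Set J} {δ : ch.WF ν κ Λ} : δ ∈ ch.Dv ν κ Λ A ↔ δ.1 = 0 ∧ (∀ l, δ.2.Q l = 0) ∧
    (∀ n, δ.2.p n = 0) ∧ δ.2.Ξ = 0 ∧ ∀ j ∉ A, δ.2.X j = 0 := Iff.rfl

theorem Ch.add_Dv {A : Set J} {δ : ch.WF ν κ Λ} (h : δ ∈ ch.Dv ν κ Λ A) (y : ch.WF ν κ Λ) :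
    y + δ = (y.1, W.mk' y.2.Q y.2.p y.2.Ξ fun j => y.2.X j + δ.2.X j) :=
  Prod.ext ((congrArg (y.1 + ·) h.1).trans (add_zero _)) (W.ext
    (fun l => (congrArg (y.2.Q l + ·) (h.2.1 l)).trans (add_zero _))
    (fun n => (congrArg (y.2.p n + ·) (h.2.2.1 n)).trans (add_zero _))
    ((congrArg (y.2.Ξ + ·) h.2.2.2.1).trans (add_zero _)) fun _ => rfl)

theorem Ch.add_mem_baseF {A : Set J} {B : Set (Λ → ℂ)} {y δ : ch.WF ν κ Λ} (hy : y ∈ ch.baseF ν κ B)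
    (h : δ ∈ ch.Dv ν κ Λ A) : y + δ ∈ ch.baseF ν κ B := by
  rw [add_Dv h]
  generalize (fun j => y.2.X j + δ.2.X j) = X
  exact hy

/-- The projection that forgets the fields. -/
noncomputable def Ch.kill : ch.WF ν κ Λ →L[ℂ] ch.WF ν κ Λ := LinearMap.toContinuousLinearMap
  { toFun := fun x => (x.1, W.mk' x.2.Q x.2.p x.2.Ξ 0)
    map_add' := fun _ _ => Prod.ext rfl (W.ext (fun _ => rfl) (fun _ => rfl) rfl fun _ =>
      (add_zero _).symm)
    map_smul' := fun c _ => Prod.ext rfl (W.ext (fun _ => rfl) (fun _ => rfl) rfl fun _ =>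
      ContinuousLinearMap.ext fun _ => (smul_zero c).symm) }

theorem Ch.kill_apply (x : ch.WF ν κ Λ) : kill x = (x.1, W.mk' x.2.Q x.2.p x.2.Ξ 0) := rfl

theorem Ch.actF_kill (F : Wt S Λ R J) (x : ch.WF ν κ Λ) (b : ch.AF ν κ S) :
    actF F b (kill x) = kill (actF F b x) := by
  rw [kill_apply, kill_apply]
  exact Prod.ext rfl (W.ext (fun _ => rfl) (fun _ => rfl) rfl fun j =>
    ContinuousLinearMap.ext fun _ => by simp [actF_snd, act_X])

theorem Ch.kill_Dv {A : Set J} (δ : ch.WF ν κ Λ) (a : δ ∈ ch.Dv ν κ Λ A) : kill δ = 0 :=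
  (kill_apply δ).trans (Prod.ext a.1 (W.ext a.2.1 a.2.2.1 a.2.2.2.1 fun _ => rfl))

/-- The action is linear. -/
noncomputable def Ch.linF (F : Wt S Λ R J) (s : ch.AF ν κ S) : ch.WF ν κ Λ →ₗ[ℂ] ch.WF ν κ Λ where
  toFun := actF F s
  map_add' _ _ := Prod.ext (funext fun _ => mul_add _ _ _) (W.ext
    (fun l => ContinuousLinearMap.ext fun _ => map_add (s.2.2.1 l) _ _)
    (fun _ => funext fun i => (congrArg _ (map_add (s.2.1 i) _ _)).trans (smul_add _ _ _))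
    (ContinuousLinearMap.ext fun _ => map_add (s.2.2.1 none) _ _)
    fun j => ContinuousLinearMap.ext fun _ =>
      (congrArg _ (smul_add (M := ℂ) (A := ch.E (some j)) _ _ _)).trans
        (map_add (s.2.2.1 (some j)) _ _))
  map_smul' _ _ := Prod.ext (funext fun _ => mul_left_comm _ _ _) (W.ext
    (fun l => ContinuousLinearMap.ext fun _ => map_smul (s.2.2.1 l) _ _)
    (fun _ => funext fun i => (congrArg _ (map_smul (s.2.1 i) _ _)).trans (smul_comm _ _ _))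
    (ContinuousLinearMap.ext fun _ => map_smul (s.2.2.1 none) _ _)
    fun j => ContinuousLinearMap.ext fun _ =>
      (congrArg _ (smul_comm (M := ℂ) (N := ℂ) (α := ch.E (some j)) _ _ _)).trans
        (map_smul (s.2.2.1 (some j)) _ _))

theorem Ch.actF_mem_Dv {F : Wt S Λ R J} {A : Set J} {δ : ch.WF ν κ Λ} (h : δ ∈ ch.Dv ν κ Λ A)
    (s : ch.AF ν κ S) : actF F s δ ∈ ch.Dv ν κ Λ A :=
  ⟨funext fun a => by simp [actF_fst, Wt.actL, h.1],
    fun l => ContinuousLinearMap.ext fun μ => by simp [actF_snd, act_Q, h.2.1 l],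
    fun n => funext fun i => by simp [actF_p, Pi.smul_apply', h.2.2.1 n],
    ContinuousLinearMap.ext fun μ => by simp [actF_snd, act_Ξ, h.2.2.2.1],
    fun j hj => ContinuousLinearMap.ext fun μ => by simp [actF_snd, act_X, h.2.2.2.2 j hj]⟩

theorem Holo.eq_zero_of_fix {A W : Type} [NormedRing A] [NormedAlgebra ℂ A] [CompleteSpace A]
    [FiniteDimensional ℂ A] [NormedAddCommGroup W] [NormedSpace ℂ W] [FiniteDimensional ℂ W]
    {act : A → W → W} [IsAct act univ] {x : W} {a : A} (π : W →L[ℂ] W) (L : W →L[ℂ] ℂ)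
    (h1 : ∀ b, act b (π x) = π (act b x)) (h2 : π (fderiv ℂ (fun b => act b x) 1 a) = 0)
    (h3 : ∀ s : Aˣ, act s (π x) = π x → L (act s x) = 0) :
    L (fderiv ℂ (fun b => act b x) 1 a) = 0 := by
  have h4 := ((act_an (act := act) 1 x).comp (f := fun b => (b, x))
    (analyticAt_id.prod analyticAt_const)).differentiableAt.hasFDerivAt
  have h5 := fix_of_fderiv (act := act) (x := π x) (a := a) (by
    rw [funext h1]
    exact (congrArg (· a) (π.hasFDerivAt.comp 1 h4).fderiv).trans h2)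
  have h6 := hasDerivAt_exp_smul_const a (0 : ℂ)
  rw [zero_smul, NormedSpace.exp_zero, one_mul] at h6
  exact (L.hasFDerivAt.comp_hasDerivAt 0 (h4.comp_hasDerivAt_of_eq 0 h6 (by simp))).unique
    ((hasDerivAt_const 0 0).congr_of_eventuallyEq (.of_forall fun z => h3 (expU (z • a)) (h5 z)))

theorem Holo.eventually_den' {A W : Type} [NormedRing A] [NormedAlgebra ℂ A] [CompleteSpace A]
    [FiniteDimensional ℂ A] [NormedAddCommGroup W] [NormedSpace ℂ W] [FiniteDimensional ℂ W]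
    {act : A → W → W} [IsAct act univ] {x : W} {T : Set W} {D : Submodule ℂ W} {ρ : Aˣ → W →ₗ[ℂ] W}
    (hρ : ∀ (s : Aˣ) y, ∀ δ ∈ D, act s (y + δ) = act s y + ρ s δ ∧ ρ s δ ∈ D) (hT : Inv act T)
    (hD : ∀ y ∈ T, ∀ δ ∈ D, y + δ ∈ T) (h : Bd act T x x) (hx : x ∈ T) (π : W →L[ℂ] W)
    (h1 : ∀ b, act b (π x) = π (act b x)) (h2 : ∀ δ ∈ D, π δ = 0)
    (eff : ∀ s : Aˣ, act s x = x → (∀ δ ∈ D, ∀ L : W →L[ℂ] ℂ,
      (∀ t : Aˣ, act t (π x) = π x → L (act t x) = 0) → L (ρ s δ) = L δ) → s = 1) :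
    ∀ᶠ y in 𝓝[T] x, Den act D y :=
  eventually_den hρ hT hD h hx fun s a b => by_contra fun d => b (eff s a fun δ e L f => by
    push Not at d
    obtain ⟨v, k⟩ := d δ e
    rw [← sub_eq_zero, ← map_sub, ← k]
    exact eq_zero_of_fix π L h1 (h2 _ (k ▸ sub_mem (hρ s x δ e).2 e)) f)

theorem Holo.Den.mk' {F : Wt S Λ R J} {A : Set J} {y : ch.WF ν κ Λ}
    (h : Den (actF F) (ch.Dv ν κ Λ A) y) :
    y ∈ closure {z | (∀ a, IsUnit a → actF F a z = z → a = 1) ∧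
      ∃ X, (∀ j ∉ A, X j = y.2.X j) ∧ z = (y.1, W.mk' y.2.Q y.2.p y.2.Ξ X)} := by
  refine closure_mono (fun z hz => ?_) h
  refine ⟨?_, fun j => y.2.X j + (z - y).2.X j, fun j hj => ?_,
    (add_sub_cancel y z).symm.trans (add_Dv hz.1 y)⟩
  · rintro _ ⟨u, rfl⟩ e
    rw [hz.2 u e, Units.val_one]
  · exact (congrArg _ (hz.1.2.2.2.2 j hj)).trans (add_zero _)

variable (ch ν) in
/-- The hypotheses on a chart. -/
structure Fam.PH (F : Fam S Λ R J K) : Prop where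
  cut : ∃ l, ∀ i, 4 ≤ ch.a l i
  M_eq : ∀ i, ch.M i = (ch.m i + 1 - ch.g).toNat
  tame : ∀ l ∈ F.B, ch.Tame (F.fib l).cone
  free : ∀ l ∈ F.B, ch.Free (F.fib l).cone
  mov : ∃ j ∈ F.mov, ch.b j ch.o ≠ 0
  cpt : ∀ (x : ℕ → (Λ → ℂ) × ch.W ν), ∀ l ∈ F.B, (∀ n, (x n).1 ∈ F.B) →
    (∀ n, (x n).2 ∈ ch.sol ν (F.fib (x n).1)) → Tendsto (fun n => (x n).1) atTop (𝓝 l) →
      ∃ z ∈ ch.sol ν (F.fib l), ∃ s : ℕ → (ch.A ν)ˣ,
        MapClusterPt z atTop fun n => act (s n).1 (x n).2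

namespace PrM

section Wt

variable {F : Wt S Λ R J}

theorem isActL {B : Set (Λ → ℂ)} (h : ∀ τ, IsUnit τ → ∀ l ∈ B, F.actL τ l ∈ B) : IsAct F.actL B :=
  ⟨fun x _ => F.actL_one x, fun a b _ _ x _ => F.actL_mul a b x, h, fun _ ha _ _ =>
    analyticAt_pi_iff.2 fun l => (an_prod_zpow analyticAt_fst (isUnit_pi_iff.1 ha) _).mul
      (analyticAt_pi_iff.1 analyticAt_snd l)⟩

instance : IsAct F.actL univ := isActL fun _ _ _ _ => trivial

theorem an_scl {P : Type*} [NormedAddCommGroup P] [NormedSpace ℂ P] {t : P → S → ℂ}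
    {x : P → ch.W ν} {q : P} (ht : AnalyticAt ℂ t q) (hx : AnalyticAt ℂ x q) (h : ∀ i, t q i ≠ 0) :
    AnalyticAt ℂ (fun y => scl (fun j => ∏ i, t y i ^ F.wt j i) (x y)) q :=
  W.an_iff.2 ⟨fun l => (W.an_Q hx l :), fun n => (W.an_p hx n :), (W.an_Ξ hx :),
    fun j => an_smul_clm (an_prod_zpow ht h _) (W.an_X hx j)⟩

end Wt

variable {F : Fam S Λ R J K} (hF : F.Good)

include hF in
theorem prpL : Prp F.actL F.B := fun l hl l' hl' => bd_of_seq fun y s h1 h2 h3 => by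
  obtain ⟨C, hC⟩ := hF.properB (fun n => s n) y l l' (fun n => (s n).isUnit) h1 hl hl' h2 h3
  exact ⟨max C 0, .of_forall fun n => (pi_norm_le_iff_of_nonneg (le_max_right _ _)).2 fun i =>
    (hC n i).1.trans (le_max_left _ _)⟩

section Gen

variable {B V : Type} [NormedRing B] [NormedAlgebra ℂ B] [CompleteSpace B] [FiniteDimensional ℂ B]
  [NormedAddCommGroup V] [NormedSpace ℂ V] [FiniteDimensional ℂ V] (act : B → V → V)
  [IsAct act univ] (sc : (S → ℂ) → V → V) (T : Set V) (Z : (Λ → ℂ) → Set V)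

/-- The action in which all marked points are rescaled independently. -/
noncomputable def actG (F : Wt S Λ R J) (s : (S → ℂ) × B) (x : (Λ → ℂ) × V) : (Λ → ℂ) × V :=
  (F.actL s.1 x.1, act s.2 (sc s.1 x.2))

variable (F) in
/-- The axioms. -/
structure Ax : Prop where
  one : ∀ x, sc 1 x = x
  mul : ∀ s t x, sc (s * t) x = sc s (sc t x)
  com : ∀ t s x, sc t (act s x) = act s (sc t x)
  an : ∀ t x, IsUnit t → AnalyticAt ℂ (fun p : (S → ℂ) × V => sc p.1 p.2) (t, x)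
  invT : Inv act T
  scT : ∀ t, ∀ x ∈ T, sc t x ∈ T
  invZ : ∀ l, Inv act (Z l)
  scZ : ∀ l ∈ F.B, ∀ t, IsUnit t → ∀ x ∈ Z l, sc t x ∈ Z (F.actL t l)
  sub : ∀ l, Z l ⊆ T
  bd : ∀ l ∈ F.B, ∀ x ∈ Z l, ∀ x' ∈ Z l, Bd act T x x'
  cpt : ∀ (x : ℕ → (Λ → ℂ) × V), ∀ l ∈ F.B, (∀ n, (x n).1 ∈ F.B) → (∀ n, (x n).2 ∈ Z (x n).1) →
    Tendsto (fun n => (x n).1) atTop (𝓝 l) →
      ∃ z ∈ Z l, ∃ s : ℕ → Bˣ, MapClusterPt z atTop fun n => act (s n).1 (x n).2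

variable {act sc T Z} (h : Ax F act sc T Z)
include h

theorem Ax.isAct : IsAct (actG act sc F.toWt) univ where
  one x _ := Prod.ext (F.actL_one _) ((Holo.act_one _).trans (h.one _))
  mul s t a b x _ := Prod.ext (F.actL_mul _ _ _) ((IsAct.mul (S := univ) _ _ (Prod.isUnit_iff.1 a).2
    (Prod.isUnit_iff.1 b).2 _ trivial).trans (congrArg _ ((congrArg _ (h.mul _ _ _)).trans
      (h.com _ _ _).symm)))
  mem _ _ _ _ := trivial
  an s hs x _ := by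
    have a : AnalyticAt ℂ (fun y : ((S → ℂ) × B) × (Λ → ℂ) × V => y.1.1) (s, x) :=
      analyticAt_fst.comp analyticAt_fst
    have b := (Prod.isUnit_iff.1 hs).1
    exact (analyticAt_pi_iff.2 fun l => (an_prod_zpow a (isUnit_pi_iff.1 b) _).mul
      (analyticAt_pi_iff.1 (analyticAt_fst.comp analyticAt_snd) l)).prod
        ((IsAct.an (S := univ) _ (Prod.isUnit_iff.1 hs).2 _ trivial).comp_of_eq
          ((analyticAt_snd.comp analyticAt_fst).prod ((h.an _ _ b).comp_of_eq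
            (a.prod (analyticAt_snd.comp analyticAt_snd)) rfl)) rfl)

include hF

theorem Ax.bdG {x x' : (Λ → ℂ) × V} (h1 : x.1 ∈ F.B) (h2 : x.2 ∈ Z x.1) (h3 : x'.1 ∈ F.B)
    (h4 : x'.2 ∈ Z x'.1) : Bd (actG act sc F.toWt) (F.B ×ˢ T) x x' := by
  refine bd_of_ultra fun U y s a1 a2 a3 => ?_
  have a4 := fun n => Prod.isUnit_iff.1 (s n).isUnit
  obtain ⟨u, b1, b2⟩ := (prpL hF _ h1 _ h3).exists_tendsto (fun τ => hF.invB _ τ.isUnit)
    (prpL hF _ h3 _ h1) U (s := fun n => (a4 n).1.unit)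
    (.of_forall fun n => (a1 n).1) a2.fst_nhds a3.fst_nhds
  have b3 : Tendsto (fun n => (s n).1.1) U (𝓝 u) := (Units.continuous_val.tendsto u).comp b1
  obtain ⟨C, b4⟩ := h.bd _ h3 _ (b2 ▸ h.scZ _ h1 _ u.isUnit _ h2) _ h4
  obtain ⟨C', b5⟩ := bdd_of_lim b3
  refine ⟨max C' C, ?_⟩
  filter_upwards [b5, (((h.an _ _ u.isUnit).continuousAt.tendsto.comp
    (b3.prodMk_nhds a2.snd_nhds)).prodMk_nhds a3.snd_nhds).eventually b4] with n d1 d2
  exact max_le_max d1 (d2 (h.scT _ _ (a1 n).2) (a4 n).2.unit rfl)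

theorem Ax.exists_prp : ∃ O, IsOpen O ∧ Inv (actG act sc F.toWt) O ∧
    {x | x.1 ∈ F.B ∧ x.2 ∈ Z x.1} ⊆ O ∧ Prp (actG act sc F.toWt) (F.B ×ˢ T ∩ O) := by
  have := h.isAct
  have := isActL (F := F.toWt) hF.invB
  have := hF.lcB.locallyCompactSpace
  have := Orb.IsQuo.nice (⟨Sp.isOpenQuotientMap_mk, fun _ _ => Sp.mk_eq_iff⟩ :
    Orb.IsQuo (S → ℂ)ˣ (Sp.mk : Sp F.actL F.B → _)) (prpL hF).orb
  have e := fun s : ((S → ℂ) × B)ˣ => Prod.isUnit_iff.1 s.isUnit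
  refine Holo.exists_prp (fun s x a => ⟨hF.invB _ (e s).1 _ a.1,
    h.invT (e s).2.unit _ (h.scT _ _ a.2)⟩) (fun s x a => ⟨hF.invB _ (e s).1 _ a.1,
      h.invZ _ (e s).2.unit _ (h.scZ _ a.1 _ (e s).1 _ a.2)⟩)
    (fun x a => ⟨a.1, h.sub _ a.2⟩) (fun x a x' b => h.bdG hF a.1 a.2 b.1 b.2)
    (f := fun a => Sp.mk (Sp.of F.actL a.1.1 a.2.1))
    (Sp.continuous_mk.comp (continuous_subtype_val.fst.subtype_mk _))
    (fun s a b d => Sp.mk_eq_iff.2 ⟨(e s).1.unit, Sp.ext (congrArg Prod.fst d)⟩)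
    fun a p a1 a2 => ?_
  obtain ⟨p, rfl⟩ := Sp.surjective_mk p
  obtain ⟨N, hN⟩ := (𝓝 p).exists_antitone_basis
  obtain ⟨φ, b1, b2⟩ := extraction_forall_of_eventually fun k => a2.eventually
    (Sp.isOpenQuotientMap_mk.isOpenMap.image_mem_nhds (hN.1.mem_of_mem trivial : N k ∈ _))
  choose q b2 b3 using b2
  choose τ b4 using fun k => Sp.mk_eq_iff.1 (b3 k).symm
  have b5 : Tendsto (fun k => F.actL (τ k) (a (φ k)).1.1) atTop (𝓝 p.val) :=
    ((Sp.continuous_val.tendsto p).comp (hN.tendsto b2)).congr fun k => (congrArg Sp.val (b4 k)).symm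
  obtain ⟨z, c1, s, c2⟩ := h.cpt (fun k => (F.actL (τ k) (a (φ k)).1.1, sc (τ k) (a (φ k)).1.2)) _
    p.val_mem (fun k => hF.invB _ (τ k).isUnit _ (a1 _).1)
    (fun k => h.scZ _ (a1 _).1 _ (τ k).isUnit _ (a1 _).2) b5
  obtain ⟨U, c3, c4⟩ := mapClusterPt_iff_ultrafilter.1 c2
  refine ⟨(p.val, z), ⟨p.val_mem, c1⟩, extend φ (fun k => (Prod.isUnit_iff.2
    ⟨(τ k).isUnit, (s k).isUnit⟩ : IsUnit ((τ k).1, (s k).1)).unit) 1, .of_comp b1.tendsto_atTop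
      (mapClusterPt_iff_ultrafilter.2 ⟨U, c3, ?_⟩)⟩
  simp only [comp_def, b1.injective.extend_apply]
  exact (b5.mono_left c3).prodMk_nhds c4

end Gen

theorem unitF (s : (ch.AF ν κ S)ˣ) : IsUnit (s.1.1, dup s.1.2) :=
  Prod.isUnit_iff.2 ⟨isUnit_S (s := s.1) s.isUnit, isUnit_dupF s.isUnit⟩

theorem bd_actF {F : Wt S Λ R J} {T T' : Set (ch.WF ν κ Λ)} {x x' : ch.WF ν κ Λ}
    (h : Bd (actG act (fun t => scl fun j => ∏ i, t i ^ F.wt j i) F) T x x') (e : T' ⊆ T) :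
    Bd (actF F) T' x x' :=
  h.imp fun _ hC => hC.mono fun _ a b s d => le_trans (max_le_max le_rfl (max_le_max le_rfl
    (max_le_max le_rfl ((pi_norm_le_iff_of_nonneg (norm_nonneg _)).2 fun n =>
      le_of_eq_of_le (by cases n <;> rfl) (norm_le_pi_norm (dup s.1.2).2.2 (n.map id (·, false)))))))
        (a (e b) (unitF s).unit d)

include hF in
theorem ax (h : F.PH ν ch) : Ax F act (fun t => scl fun j => ∏ i, t i ^ F.wt j i) (ch.base ν)
    fun l => ch.sol ν (F.fib l) where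
  one x := by
    convert scl_one x
    simp
  mul s t x := (congrArg (scl · x) (funext fun j => prod_zpow_mul _ _ _)).trans (scl_mul _ _ x)
  com _ _ _ := scl_act _ _ _
  an _ _ a := an_scl analyticAt_fst analyticAt_snd (isUnit_pi_iff.1 a)
  invT s _ := act_mem_base s
  scT _ _ := id
  invZ _ s _ := act_mem_sol s
  scZ l hl τ hτ x hx := ⟨hx.1, fun z hz => by
    obtain ⟨y, a, b⟩ := hx.2 z hz
    exact ⟨_, (hF.cone_act (t := (τ, 1)) (Prod.isUnit_iff.2 ⟨hτ, isUnit_one⟩) (z := (l, y))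
      ⟨hl, a⟩).2, fun j μ => by simp [Wt.actT, b, mul_assoc]⟩⟩
  sub _ _ a := a.1
  bd l hl _ a _ b := bd h.cut.choose_spec (M_eq_of h.M_eq a.1) (h.tame l hl) a b
  cpt := h.cpt

end PrM

open PrM in
theorem Fam.PH.den {F : Fam S Λ R J K} (h : F.PH (Mk ν κ) ch) (hF : F.Good) : ∃ O, IsOpen O ∧
    Holo.Inv (actF F.toWt) O ∧ ch.solF ν κ F ⊆ O ∧
      ∀ y ∈ ch.baseF ν κ F.B ∩ O, Den (actF F.toWt) (ch.Dv ν κ Λ F.mov) y := by
  classical
  have h1 : ∀ (s : (ch.AF ν κ S)ˣ) y, ∀ δ ∈ ch.Dv ν κ Λ F.mov, actF F.toWt s.1 (y + δ) =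
      actF F.toWt s.1 y + linF F.toWt s.1 δ ∧ linF F.toWt s.1 δ ∈ ch.Dv ν κ Λ F.mov :=
    fun s y δ a => ⟨(linF F.toWt s.1).map_add y δ, actF_mem_Dv a _⟩
  have h2 : Holo.Inv (actF F.toWt) (ch.baseF ν κ F.B) := fun s x a =>
    actF_mem_baseF s.isUnit a (hF.invB _ (isUnit_S s.isUnit) _ a.1)
  refine exists_den h1 h2 fun x hx => eventually_den' h1 h2 (fun y a δ => add_mem_baseF a)
    (bd_actF ((ax hF h).bdG hF hx.1.1 hx.2 hx.1.1 hx.2) fun _ a => ⟨a.1, a.2.1⟩) hx.1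
    kill (actF_kill _ x) kill_Dv fun s d1 d3 => ?_
  have k1 : s.1.1 = 1 := hF.freeB _ (isUnit_S s.isUnit) _ hx.1.1 (congrArg Prod.fst d1)
  have k2 : (fun j => ∏ i, s.1.1 i ^ F.wt j i) = 1 := funext fun j => by simp [k1]
  have k3 := congrArg Prod.snd d1
  rw [actF_snd, k2, scl_one] at k3
  obtain ⟨j, k4, k5⟩ := h.mov
  have k6 : dup s.1.2 = 1 := congrArg Units.val (eq_one (s := (isUnit_dupF s.isUnit).unit) hx.2
    (h.free _ hx.1.1) (M_eq_of h.M_eq hx.2.1) k3 (prop_of_kos k5 fun X c u hu μ hμ => by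
      have k9 : u _ ((actF F.toWt s.1 _).2.X j μ) = u _ (Pi.single (M := fun j => _ →L[ℂ] _) j X j μ) :=
        d3 (0, W.mk' 0 0 0 (Pi.single j X)) ⟨rfl, fun _ => rfl, fun _ => rfl, rfl, fun j' b =>
          Pi.single_eq_of_ne (ne_of_mem_of_not_mem k4 b).symm _⟩
          (u (some j) ∘L ContinuousLinearMap.apply ℂ _ μ ∘L W.XL j ∘L .snd _ _ _) fun t e => by
            rw [actF_kill, kill_apply, kill_apply] at e
            have h5 : (actF F.toWt t.1 x).2.Q = x.2.Q := congrArg (·.2.Q) e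
            obtain ⟨y, -, h6⟩ := (actF_mem_solF hF.toInv t.isUnit hx).2.2 (c, u)
              ⟨hu.1, fun l μ => (congrArg (fun Q => u l (Q l μ)) h5).trans (hu.2 l μ)⟩
            exact (h6 j μ).trans (by rw [hμ, mul_zero])
      simp only [actF_snd, k2, scl_one, act_X, W.mk'_X, Pi.single_eq_same] at k9
      exact (map_sub _ _ _).trans (sub_eq_zero.2 k9)))
  exact Units.ext (Prod.ext k1 (Prod.ext (congrArg (·.1) k6) (Prod.ext (congrArg (·.2.1) k6)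
    (funext fun n => Eq.trans (by cases n <;> rfl)
      (congrFun (congrArg (·.2.2) k6) (n.map id (·, false)))))))

open PrM in
/-- **Properness and generic freeness near the solutions.** -/
theorem Fam.PH.exists_prp {F : Fam S Λ R J K} (h : F.PH (Mk ν κ) ch) (hF : F.Good) :
    ∃ O, IsOpen O ∧ Holo.Inv (actF F.toWt) O ∧ ch.solF ν κ F ⊆ O ∧
      Prp (actF F.toWt) (ch.baseF ν κ F.B ∩ O) ∧
        ∀ y ∈ ch.baseF ν κ F.B ∩ O, Den (actF F.toWt) (ch.Dv ν κ Λ F.mov) y := by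
  obtain ⟨O, a1, a2, a3, a4⟩ := (ax hF h).exists_prp hF
  obtain ⟨O', b1, b2, b3, b4⟩ := h.den hF
  have e : ch.baseF ν κ F.B ⊆ F.B ×ˢ ch.base _ := fun _ a => ⟨a.1, a.2.1⟩
  exact ⟨O ∩ O', a1.inter b1, fun s x a => ⟨a2 (unitF s).unit x a.1, b2 s x a.2⟩,
    fun x a => ⟨a3 ⟨a.1.1, a.2⟩, b3 a⟩, fun x a x' b => bd_actF (a4 x ⟨e a.1, a.2.1⟩ x' ⟨e b.1, b.2.1⟩)
      fun y d => ⟨e d.1, d.2.1⟩, fun y a => b4 y ⟨a.1, a.2.2⟩⟩

namespace Fam.Good

variable {F : Fam S Λ R J K} (hF : F.Good) {g : ℤ} {n₀ : ℕ} {d : R → ℤ} {k D : ℕ} (hk : F.Big k)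
  (hD : F.BigD k D)
include hF hk hD

theorem ph (hn : Fintype.card ν = n₀) : F.PH ν (F.chart g n₀ d k D) :=
  ⟨⟨none, fun _ => hD.le⟩, fun _ => rfl, fun _ => hF.tame g n₀ d hD, fun _ => hF.free' g n₀ d hD,
    hF.mov_ne.imp fun _ a => ⟨a, by simp [Fam.chart, Tgt.chart]⟩, Cpt.cpt_sol hF hk hD hn⟩

/-- **Properness and generic freeness near the solutions** in the standard charts. -/
theorem exists_prp (hn : Fintype.card (Mk ν κ) = n₀) :
    ∃ O, IsOpen O ∧ Holo.Inv (actF F.toWt) O ∧ (F.chart g n₀ d k D).solF ν κ F ⊆ O ∧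
      Prp (actF F.toWt) ((F.chart g n₀ d k D).baseF ν κ F.B ∩ O) ∧
        ∀ y ∈ (F.chart g n₀ d k D).baseF ν κ F.B ∩ O,
          Den (actF F.toWt) ((F.chart g n₀ d k D).Dv ν κ Λ F.mov) y :=
  (hF.ph hk hD hn).exists_prp hF

end Fam.Good

end Vale.Agent.P269
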